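import Vale.Agent.P352.BW.H26.G3
import Vale.Agent.P352Z.P352.BW.U

open Vale.Agent.P352G

/-!
# P352 BW: block G3
-/

set_option linter.all false

noncomputable section

open MeasureTheory Filter Topology

namespace Vale.Agent.P352.BW.H26

open GF (Ix V Fn Fld Theory IsLor bas eta o sim)
open H246 H496 H755 H15
open H746 (nrt sim_nrt nrt_fix isLor_nrt nrt_row)
open Vale.Agent.P132 (ModData)
open UniformSpace (Completion)

variable {D : Type*} [NormedAddCommGroup D] [InnerProductSpace ℂ D] [GrD D] {Q : Theory D}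
  {A : (V → V) → D → D} {𝒜 : Set V → VonNeumannAlgebra (Completion D)}

/-! ### Composition of Poincaré transformations -/

/-- two compositions of Poincaré transformations that agree as maps -/
lemma Ue_eq4Z (hU : UStmtZ Q A) {L L' M M' : Ix → V} (hL : IsLor L) (hL' : IsLor L')
    (hM : IsLor M) (hM' : IsLor M') (o1 : OkL L L') (o2 : OkL M M') {y y' u u' : V}
    (h : ∀ x, sim 1 L y (sim 1 L' y' x) = sim 1 M u (sim 1 M' u' x)) (z : Completion D) :
    Ue Q 1 L y (Ue Q 1 L' y' z) = Ue Q 1 M u (Ue Q 1 M' u' z) := by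
  rw [hU.mul 1 L y 1 L' y' z one_pos one_pos hL hL' o1,
    hU.mul 1 M u 1 M' u' z one_pos one_pos hM hM' o2]
  have h0 : sim 1 L y y' = sim 1 M u u' := by
    have h1 := h 0
    rwa [sim_at0 L' y' 0, sim_at0 M' u' 0, sim_00, sim_00, zero_add, zero_add] at h1
  have h1 : (fun m => sim 1 L 0 (L' m)) = fun m => sim 1 M 0 (M' m) := by
    funext m
    have h2 := h (bas m 1)
    rw [sim_at0 L' y', sim_at0 M' u', ← sim_row, ← sim_row, sim_at0 L, sim_at0 M, simL_add,
      simL_add] at h2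
    rw [sim_at0 L, sim_at0 M] at h0
    have h3 : sim 1 L 0 (L' m) + (sim 1 L 0 y' + y) = sim 1 M 0 (M' m) + (sim 1 M 0 u' + u) := by
      rw [← add_assoc, ← add_assoc]
      exact h2
    rw [h0] at h3
    exact add_right_cancel h3
  rw [h0, h1]

/-- a composition of Poincaré transformations -/
lemma Ue_cmpZ (hU : UStmtZ Q A) {L L' M : Ix → V} (hL : IsLor L) (hL' : IsLor L')
    (hM : IsLor M) (o1 : OkL L L') {y y' u : V}
    (h : ∀ x, sim 1 L y (sim 1 L' y' x) = sim 1 M u x) (z : Completion D) :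
    Ue Q 1 L y (Ue Q 1 L' y' z) = Ue Q 1 M u z := by
  have h1 := Ue_eq4Z (M' := GF.one) (u' := 0) hU hL hL' hM isLor_1 o1 (Or.inr (Or.inl rfl))
    (fun x => by rw [sim_one0]; exact h x) z
  rwa [Ue_one] at h1

lemma Ue_ttZ (hU : UStmtZ Q A) (x y : V) (z : Completion D) :
    Ue Q 1 GF.one x (Ue Q 1 GF.one y z) = Ue Q 1 GF.one (x + y) z :=
  Ue_cmpZ hU isLor_1 isLor_1 isLor_1 (Or.inl rfl) (fun p => by rw [HM.sim_tr, HM.sim_tr, HM.sim_tr]; abel) z

/-! ### The relation from the self maps of the regions -/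

section rel

variable {a b w : V}

variable (hU : UStmtZ Q A) (ha : IsNull a) (haw : GF.mdot a w = 0)
  {S : ℝ → Completion D →L[ℂ] Completion D}
  (hK : ∀ (μ r : ℝ), 0 < μ → 0 < μ + r → ∀ z : Completion D,
    S r (Ue Q 1 (nrt a (μ • w)) (w - (μ * GF.mdot w w) • a) z) =
      Ue Q 1 (nrt a ((μ + r) • w)) (w - ((μ + r) * GF.mdot w w) • a) (S r z))

include hU ha haw hK

end rel

section perp

variable {a b : V} (hU : UStmtZ Q A) (ha : IsNull a) (hb : IsNull b) (hab : GF.mdot a b = 1)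
  {S : ℝ → Completion D →L[ℂ] Completion D}
  (hK : ∀ w, GF.mdot a w = 0 → GF.mdot b w = 0 → ∀ (μ r : ℝ), 0 < μ → 0 < μ + r →
    ∀ z : Completion D, S r (Ue Q 1 (nrt a (μ • w)) (w - (μ * GF.mdot w w) • a) z) =
      Ue Q 1 (nrt a ((μ + r) • w)) (w - ((μ + r) * GF.mdot w w) • a) (S r z))

include hU ha hb hab hK

end perp

end Vale.Agent.P352.BW.H26

namespace Vale.Agent.P352.BW

variable {D : Type*} [NormedAddCommGroup D] [InnerProductSpace ℂ D] [GrD D] {Q : GF.Theory D}
  {A : (GF.V → GF.V) → D → D}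
  {𝒜 : Set GF.V → VonNeumannAlgebra (UniformSpace.Completion D)}

end Vale.Agent.P352.BW

end
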