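import Vale.Agent.P352.BW.H26.Lcc
import Vale.Agent.P352Z.P352.BW.H26.G3

open Vale.Agent.P352G

/-!
# P352 BW: the light cone relation of the null deformations, limit and law
-/

set_option linter.all false

noncomputable section

open MeasureTheory Filter Topology

namespace Vale.Agent.P352.BW.H26L

open GF (Ix V Fn Fld Theory IsLor bas eta o sim)
open H246 H496 H755 H15
open Vale.Agent.P132 (ModData)
open UniformSpace (Completion)

/-! ### Isometries and limits -/

section lim

variable {H : Type*} [NormedAddCommGroup H]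

end lim

variable {D : Type*} [NormedAddCommGroup D] [InnerProductSpace ℂ D] [GrD D] {Q : Theory D}
  {A : (V → V) → D → D} {𝒜 : Set V → VonNeumannAlgebra (Completion D)}

lemma Ue_isoZ (hU : UStmtZ Q A) {s : ℝ} (hs : 0 < s) {L : Ix → V} (hL : IsLor L) (x : V)
    (z w : Completion D) : ‖Ue Q s L x z - Ue Q s L x w‖ = ‖z - w‖ := by
  obtain ⟨W, hW⟩ := hU.lin s L x hs hL
  rw [← hW, ← hW, ← map_sub, LinearIsometryEquiv.norm_map]

/-- strong continuity along curves of similitudes through the identity -/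
lemma tends_UeZ (hU : UStmtZ Q A) (R : RepZ Q A) (s : ℝ → ℝ) (L : ℝ → Ix → V) (x : ℝ → V)
    (X : V → V) (h1 : s 0 = 1) (h2 : L 0 = GF.one) (h3 : x 0 = 0)
    (h4 : ∀ e, 0 < s e ∧ IsLor (L e))
    (h5 : ∀ n y, HasDerivAt (fun e => sim (s e) (L e) (x e) y n) (X y n) 0)
    (z : Completion D) : Tendsto (fun e => Ue Q (s e) (L e) (x e) z) (𝓝 0) (𝓝 z) := by
  have h0 : ∀ᶠ t in 𝓝 (0 : ℝ), ∀ y w : Completion D,
      ‖Ue Q (s t) (L t) (x t) y - Ue Q (s t) (L t) (x t) w‖ = ‖y - w‖ :=
    Eventually.of_forall fun t y w => Ue_isoZ hU (h4 t).1 (h4 t).2 (x t) y w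
  refine tends_all (F := fun e => Ue Q (s e) (L e) (x e)) h0 (fun v => ?_) z
  have h6 := (R.der s L x X v h1 h2 h3 h4 h5).continuousAt
  have h7 : ContinuousAt (fun e => ((Q.U (s e) (L e) (x e) v : D) : Completion D)) 0 :=
    (Completion.continuous_coe D).continuousAt.comp h6
  have h8 : ((Q.U (s 0) (L 0) (x 0) v : D) : Completion D) = v := by
    have h9 := hU.coe 1 GF.one 0 v one_pos isLor_one
    rw [h1, h2, h3, ← h9, Ue_one]
  have h9 : Tendsto (fun e => ((Q.U (s e) (L e) (x e) v : D) : Completion D)) (𝓝 0)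
      (𝓝 (v : Completion D)) := by
    have h10 := h7.tendsto
    rwa [h8] at h10
  refine h9.congr fun e => ?_
  rw [hU.coe (s e) (L e) (x e) v (h4 e).1 (h4 e).2]

variable {a b : V}

/-- translations -/
lemma tends_trZ (hU : UStmtZ Q A) (R : RepZ Q A) (z : Completion D) :
    Tendsto (fun t : ℝ => Ue Q 1 GF.one (t • b) z) (𝓝 0) (𝓝 z) := by
  refine tends_UeZ hU R (fun _ => 1) (fun _ => GF.one) (fun t => t • b) (fun _ => b) rfl rfl
    (zero_smul _ _) (fun _ => ⟨one_pos, isLor_one⟩) (fun n y => ?_) z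
  have h1 : (fun e : ℝ => sim 1 GF.one (e • b) y n) = fun e : ℝ => y n + e * b n := by
    funext e
    rw [HM.sim_tr]
    rfl
  rw [h1]
  simpa using ((hasDerivAt_id (0 : ℝ)).mul_const (b n)).const_add (y n)

variable {S : V → ℝ → Completion D →L[ℂ] Completion D}

end Vale.Agent.P352.BW.H26L

end
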